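import Vale.Agent.P022.H431.Sv.Defs

set_option autoImplicit false

/-!
P022-L3, [SOLV], row [IND] (second copy): the monomial irreducible case does not occur.
-/

open NumberField Matrix Topology

noncomputable section

namespace Vale.Agent.P022.H940.Sv

open Vale.Agent.P022 Vale.Agent.P022.Sv

private lemma compactGQ : CompactSpace GQ := by
  have h1 : Algebra.IsAlgebraic ℚ Qb := AlgebraicClosure.isAlgebraic ℚ
  have h2 : IsAlgClosure ℚ Qb := ⟨inferInstance, inferInstance⟩
  have h3 : IsGalois ℚ Qb := IsAlgClosure.isGalois ℚ Qb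
  infer_instance

/-- the almost periods of a continuous function on a compact group are a neighbourhood of `1`. -/
private lemma nhds_per {G E : Type} [Group G] [TopologicalSpace G] [IsTopologicalGroup G]
    [CompactSpace G] [SeminormedAddCommGroup E] {f : G → E} (hf : Continuous f) :
    {g : G | ∀ h, ‖f (g * h) - f h‖ < 1} ∈ 𝓝 (1 : G) := by
  have h1 : Continuous fun p : G × G => ‖f (p.1 * p.2) - f p.2‖ :=
    ((hf.comp continuous_mul).sub (hf.comp continuous_snd)).norm
  have h2 : IsOpen {p : G × G | ‖f (p.1 * p.2) - f p.2‖ < 1} := isOpen_lt h1 continuous_const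
  obtain ⟨u, v, hu, hv, h1u, hvu, huv⟩ := generalized_tube_lemma
    (isCompact_singleton (x := (1 : G))) (isCompact_univ (X := G)) h2 (by
      rintro ⟨a, b⟩ ⟨ha, -⟩
      have ha' : a = 1 := ha
      rw [ha', Set.mem_ofPred_eq]
      simp only [one_mul, sub_self, norm_zero, zero_lt_one])
  refine Filter.mem_of_superset (hu.mem_nhds (h1u rfl)) ?_
  intro g hg h
  exact huv (Set.mk_mem_prod hg (hvu (Set.mem_univ h)))

/-- In characteristic two the units have no element of order two. -/
private lemma sq_one {k : Type} [Field k] [CharP k 2] (x : kˣ) (h : x * x = 1) : x = 1 := by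
  have h1 : (x : k) * x = 1 := by
    have := congrArg (fun u : kˣ => (u : k)) h
    simpa using this
  have h2 : ((x : k) - 1) ^ 2 = 0 := by
    have h3 : (2 : k) = 0 := CharTwo.two_eq_zero
    have h4 : ((x : k) - 1) ^ 2 = x * x + 1 - 2 * x := by ring
    rw [h4, h1, h3, zero_mul, sub_zero]
    have h5 : (1 : k) + 1 = 2 := by norm_num
    rw [h5, h3]
  have h3 : (x : k) - 1 = 0 := pow_eq_zero_iff (two_ne_zero) |>.1 h2
  exact Units.ext (by rw [Units.val_one]; exact sub_eq_zero.1 h3)

/-- a nontrivial character with open kernel of a compact group in characteristic two gives one of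
odd prime order. -/
private lemma exists_theta {k : Type} [Field k] [CharP k 2] {G : Type} [Group G]
    (χ : G →* kˣ) (hfin : Finite χ.range) (m0 : G) (hm0 : χ m0 ≠ 1) :
    ∃ (q : ℕ) (_ : q.Prime) (_ : q ≠ 2) (θ : G →* Multiplicative (ZMod q)),
      Function.Surjective θ ∧ χ.ker ≤ θ.ker := by
  classical
  have := hfin
  have hcyc : IsCyclic χ.range := inferInstance
  set n := Nat.card χ.range with hn
  have hn1 : n ≠ 1 := by
    intro h
    have h1 := (Nat.card_eq_one_iff_unique.1 (hn ▸ h)).1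
    have h2 : (⟨χ m0, m0, rfl⟩ : χ.range) = 1 := Subsingleton.elim _ _
    exact hm0 (congrArg Subtype.val h2)
  have hq := Nat.minFac_prime hn1
  have hqn := Nat.minFac_dvd n
  refine ⟨n.minFac, hq, ?_, ?_⟩
  · intro h2
    have : Fact (Nat.Prime 2) := ⟨Nat.prime_two⟩
    rw [h2] at hqn
    obtain ⟨x, hx⟩ := exists_prime_orderOf_dvd_card' (G := χ.range) 2 (by rw [← hn]; exact hqn)
    have h3 : x * x = 1 := by rw [← pow_two, ← hx, pow_orderOf_eq_one]
    have h4 : (x : kˣ) = 1 := sq_one _ (by
      have := congrArg Subtype.val h3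
      simpa using this)
    have h5 : x = 1 := Subtype.ext h4
    rw [h5, orderOf_one] at hx
    omega
  · let f : ZMod n →+* ZMod n.minFac := ZMod.castHom hqn (ZMod n.minFac)
    let e : Multiplicative (ZMod n) ≃* χ.range := zmodCyclicMulEquiv hcyc
    let θ : G →* Multiplicative (ZMod n.minFac) :=
      (AddMonoidHom.toMultiplicative f.toAddMonoidHom).comp
        (e.symm.toMonoidHom.comp χ.rangeRestrict)
    refine ⟨θ, ?_, ?_⟩
    · intro y
      obtain ⟨z, hz⟩ := ZMod.castHom_surjective hqn (Multiplicative.toAdd y)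
      obtain ⟨g, hg⟩ := χ.rangeRestrict_surjective (e (Multiplicative.ofAdd z))
      refine ⟨g, ?_⟩
      change AddMonoidHom.toMultiplicative f.toAddMonoidHom (e.symm (χ.rangeRestrict g)) = y
      rw [hg, MulEquiv.symm_apply_apply]
      change Multiplicative.ofAdd (f z) = y
      rw [show f z = Multiplicative.toAdd y from hz]
      rfl
    · intro g hg
      rw [MonoidHom.mem_ker] at hg ⊢
      have h1 : χ.rangeRestrict g = 1 := Subtype.ext hg
      change AddMonoidHom.toMultiplicative f.toAddMonoidHom (e.symm (χ.rangeRestrict g)) = 1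
      rw [h1, map_one, map_one]

/-- the subgroup of the periods of a function `t`. -/
private def per {G k : Type} [Group G] (t : G → k) : Subgroup G where
  carrier := {g | ∀ h, t (g * h) = t h}
  mul_mem' {a b} ha hb h := by rw [mul_assoc, ha, hb]
  one_mem' h := by rw [one_mul]
  inv_mem' {a} ha h := by
    have := ha (a⁻¹ * h)
    rw [← this, mul_inv_cancel_left]

private lemma mem_per {G k : Type} [Group G] {t : G → k} {g : G} :
    g ∈ per t ↔ ∀ h, t (g * h) = t h := Iff.rfl

private lemma trace_zero {E : Type} [Field E] (A : Matrix (Fin 2) (Fin 2) E) (h : A * A = 1)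
    (h' : A.det = -1) : A.trace = 0 := by
  have h00 := congrFun (congrFun h 0) 0
  have h11 := congrFun (congrFun h 1) 1
  simp only [Matrix.mul_apply, Fin.sum_univ_two, Matrix.one_apply_eq] at h00 h11
  rw [Matrix.det_fin_two] at h'
  rw [Matrix.trace_fin_two]
  have h1 : (A 0 0 + A 1 1) ^ 2 = 0 := by linear_combination h00 + h11 + 2 * h'
  exact eq_zero_of_pow_eq_zero h1

theorem ind (hQ : QuadStmt) (hO : OddStmt) : IndStmt := by
  classical
  intro E _ _ _ r hr hunr hp3 O hmem k _ _ π t ht M χ₁ χ₂ hidx hM hM0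
  have := compactGQ
  by_contra hcon
  push Not at hcon
  obtain ⟨m0, hm0⟩ := hcon
  -- elements of norm `< 1` go to zero
  have hπ : ∀ x : O, ‖(x : E)‖ < 1 → π x = 0 := by
    intro x hx
    have h2 : (2 : E) ≠ 0 := by
      have : CharZero E := charZero_of_injective_algebraMap (algebraMap ℚ_[2] E).injective
      exact two_ne_zero
    have h3 : 0 < ‖(2 : E)‖ := norm_pos_iff.2 h2
    obtain ⟨n, hn⟩ := exists_pow_lt_of_lt_one h3 hx
    have hy : ‖(x : E) ^ n / 2‖ ≤ 1 := by
      rw [norm_div, norm_pow, div_le_one h3]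
      exact hn.le
    let y : O := ⟨(x : E) ^ n / 2, (hmem _).2 hy⟩
    have h4 : x ^ n = 2 * y := by
      apply Subtype.ext
      change (x : E) ^ n = 2 * ((x : E) ^ n / 2)
      field_simp
    have h5 : π x ^ n = 0 := by
      rw [← map_pow, h4, map_mul, map_ofNat, CharTwo.two_eq_zero, zero_mul]
    exact eq_zero_of_pow_eq_zero h5
  have htt : ∀ g h, ‖(r g : Matrix (Fin 2) (Fin 2) E).trace -
      (r h : Matrix (Fin 2) (Fin 2) E).trace‖ < 1 → t g = t h := by
    intro g h hgh
    obtain ⟨a, ha1, ha2⟩ := ht g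
    obtain ⟨b, hb1, hb2⟩ := ht h
    have h1 : π (a - b) = 0 := hπ _ (by
      change ‖(a : E) - (b : E)‖ < 1
      rw [ha1, hb1]
      exact hgh)
    rw [map_sub, sub_eq_zero, ha2, hb2] at h1
    exact h1
  -- the periods of `t` are an open subgroup
  have htr : Continuous fun g : GQ => (r g : Matrix (Fin 2) (Fin 2) E).trace :=
    (Units.continuous_val.comp hr).matrix_trace
  have hWopen : IsOpen (per t : Set GQ) := by
    refine Subgroup.isOpen_of_mem_nhds _ (g := 1) ?_
    refine Filter.mem_of_superset (nhds_per htr) ?_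
    intro g hg h
    exact htt _ _ (hg h)
  have hne : (χ₁ m0 : k) + χ₂ m0 ≠ 0 := by
    intro h
    apply hm0
    apply Units.ext
    exact CharTwo.add_eq_zero.1 h
  have hWM : ∀ g, g ∈ per t → g ∈ M := by
    intro g hg
    have h1 : t (g * m0) = (χ₁ m0 : k) + χ₂ m0 := by rw [hg, hM]
    have h2 : g * (m0 : GQ) ∈ M := by
      by_contra h3
      rw [hM0 _ h3] at h1
      exact hne h1.symm
    have h3 := M.mul_mem h2 (M.inv_mem m0.2)
    rwa [mul_inv_cancel_right] at h3
  have hMopen : IsOpen (M : Set GQ) := Subgroup.isOpen_mono (H₁ := per t) hWM hWopen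
  have hχW : ∀ g : M, (g : GQ) ∈ per t → χ₁ g = χ₂ g := by
    intro g hg
    have h1 := hg 1
    rw [mul_one] at h1
    have h2 : t 1 = 0 := by
      have h3 := hM 1
      rw [map_one, map_one, Units.val_one] at h3
      rw [show ((1 : M) : GQ) = 1 from rfl] at h3
      rw [h3]
      exact CharTwo.add_self_eq_zero 1
    rw [h2, hM] at h1
    exact Units.ext (CharTwo.add_eq_zero.1 h1)
  have hin : ∀ ℓ : ℕ, ℓ.Prime → ¬ ℓ ∣ 6 → ∀ P : Ideal (𝓞 Qb), P.IsPrime → (ℓ : 𝓞 Qb) ∈ P →
      ∀ g : GQ, (∀ x : 𝓞 Qb, g • x - x ∈ P) → g ∈ per t := by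
    intro ℓ hℓ hℓ6 P hP hℓP g hg h
    have h2 : ℓ ≠ 2 := by rintro rfl; exact hℓ6 (by norm_num)
    have h3 : ℓ ≠ 3 := by rintro rfl; exact hℓ6 (by norm_num)
    have h4 := hunr ℓ hℓ h2 h3 P hP hℓP g hg
    apply htt
    rw [map_mul, h4, one_mul, sub_self, norm_zero]
    exact one_pos
  obtain ⟨K, _, _, j, s, d, hK, hrk, hd, hs⟩ := hQ M hMopen hidx
    (fun ℓ hℓ hℓ6 P hP hℓP g hg => hWM g (hin ℓ hℓ hℓ6 P hP hℓP g hg))
  subst hK
  set χ : GK j →* kˣ := χ₁ / χ₂ with hχ
  have hχ1 : ∀ g : GK j, χ₁ g = χ₂ g → χ g = 1 := by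
    intro g hg
    rw [hχ, MonoidHom.div_apply, hg, div_self']
  have hχm : χ m0 ≠ 1 := by
    intro h
    rw [hχ, MonoidHom.div_apply, div_eq_one] at h
    exact hm0 h
  have hkopen : IsOpen (χ.ker : Set (GK j)) := by
    refine Subgroup.isOpen_mono (H₁ := (per t).subgroupOf (GK j)) ?_ ?_
    · intro g hg
      exact hχ1 g (hχW g hg)
    · exact hWopen.preimage continuous_subtype_val
  have : CompactSpace (GK j) :=
    isCompact_iff_compactSpace.1 (Subgroup.isClosed_of_isOpen _ hMopen).isCompact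
  have : Finite (GK j ⧸ χ.ker) := Subgroup.quotient_finite_of_isOpen _ hkopen
  have hfin : Finite χ.range := Finite.of_equiv _ (QuotientGroup.quotientKerEquivRange χ).toEquiv
  obtain ⟨q, hq, hq2, θ, hθs, hθk⟩ := exists_theta χ hfin m0 hχm
  have hall := hO K j s d hrk hd hs q hq hq2 θ (Subgroup.isOpen_mono hθk hkopen) (by
    intro ℓ hℓ hℓ2 P hP hℓP g hg
    apply hθk
    rw [MonoidHom.mem_ker]
    apply hχ1
    by_cases hℓ3 : ℓ = 3
    · subst hℓ3
      have h1 : (r g : Matrix (Fin 2) (Fin 2) E).trace = 2 ∨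
          (r g : Matrix (Fin 2) (Fin 2) E).trace = 0 := by
        rcases hp3.2 P hP hℓP g hg with h | ⟨h, h'⟩
        · left
          rw [h]
          simp
        · right
          exact trace_zero _ (by
            have h2 := congrArg (fun u : GL (Fin 2) E => (u : Matrix (Fin 2) (Fin 2) E)) h
            simpa using h2) h'
      obtain ⟨a, ha1, ha2⟩ := ht g
      have h2 : π a = 0 := by
        rcases h1 with h | h
        · have h3 : a = 2 := by
            apply Subtype.ext
            rw [ha1, h]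
            rfl
          rw [h3, map_ofNat, CharTwo.two_eq_zero]
        · have h3 : a = 0 := by
            apply Subtype.ext
            rw [ha1, h]
            rfl
          rw [h3, map_zero]
      rw [h2, hM] at ha2
      exact Units.ext (CharTwo.add_eq_zero.1 ha2.symm)
    · apply hχW
      refine hin ℓ hℓ ?_ P hP hℓP g hg
      intro h6
      have h7 : ℓ ∣ 2 * 3 := h6
      rcases (Nat.Prime.dvd_mul hℓ).1 h7 with h8 | h8
      · exact hℓ2 ((Nat.prime_dvd_prime_iff_eq hℓ Nat.prime_two).1 h8)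
      · exact hℓ3 ((Nat.prime_dvd_prime_iff_eq hℓ Nat.prime_three).1 h8))
  have : Fact q.Prime := ⟨hq⟩
  obtain ⟨g, hg⟩ := hθs (Multiplicative.ofAdd 1)
  rw [hall g] at hg
  have h1 : (0 : ZMod q) = 1 := by
    have := congrArg Multiplicative.toAdd hg
    simpa using this
  exact zero_ne_one h1

end Vale.Agent.P022.H940.Sv
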